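import Vale.Agent.Lib.P226.Cell
import Vale.Agent.Lib.P226.Dust.Planar
import Vale.Agent.Lib.P226.Propeller

open MeasureTheory ProbabilityTheory
open scoped RealInnerProductSpace

namespace Vale.Agent.Results.P226.FourClasses

/-- Four results on the propeller problem in one statement. Let `E` be a finite-dimensional
real inner product space (for instance `ℝ^d`) with its standard Gaussian measure and `A` a
finite family of pairwise disjoint measurable cells of `E` (in particular a finite measurable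
partition); write `S` for the sum of the squared norms of the Gaussian first moments of the
cells.
(1) Always `S ≤ 81 / 200`.
(2) If every cell has Gaussian measure at most `1 / 7` or at least `4 / 9`, then
`S ≤ 9 / (8 π)`, the propeller value.
(3) If every cell outside a set `T` of cells has Gaussian measure at most `10⁻¹¹`, and `T` has
at most three elements or the first moments of the cells of `T` lie in a common linear subspace
of dimension at most two, then `S ≤ 9 / (8 π)`.
(4) If `u 0, u 1, u 2` are unit vectors with sum zero and every cell lies in one of the three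
open propeller cells `{x | ⟪u l, x⟫ < ⟪u j, x⟫ for l ≠ j}`, then `S ≤ 9 / (8 π)`. -/
theorem result {E : Type*} [NormedAddCommGroup E] [InnerProductSpace ℝ E]
    [FiniteDimensional ℝ E] [MeasurableSpace E] [BorelSpace E]
    {ι : Type*} [Fintype ι] (A : ι → Set E)
    (hmeas : ∀ i, MeasurableSet (A i))
    (hdisj : Pairwise (fun i j => Disjoint (A i) (A j))) :
    ∑ i, ‖∫ x in A i, x ∂(stdGaussian E)‖ ^ 2 ≤ 81 / 200 ∧
    ((∀ i, (stdGaussian E).real (A i) ≤ 1 / 7 ∨ 4 / 9 ≤ (stdGaussian E).real (A i)) →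
      ∑ i, ‖∫ x in A i, x ∂(stdGaussian E)‖ ^ 2 ≤ 9 / (8 * Real.pi)) ∧
    (∀ T : Finset ι,
      (T.card ≤ 3 ∨ ∃ W : Submodule ℝ E, Module.finrank ℝ W ≤ 2 ∧
        ∀ i ∈ T, (∫ x in A i, x ∂(stdGaussian E)) ∈ W) →
      (∀ i, i ∉ T → (stdGaussian E).real (A i) ≤ 1 / 10 ^ 11) →
      ∑ i, ‖∫ x in A i, x ∂(stdGaussian E)‖ ^ 2 ≤ 9 / (8 * Real.pi)) ∧
    (∀ u : Fin 3 → E, (∀ j, ‖u j‖ = 1) → u 0 + u 1 + u 2 = 0 →
      (∀ i, ∃ j, ∀ x ∈ A i, ∀ l, l ≠ j → ⟪u l, x⟫ < ⟪u j, x⟫) →
      ∑ i, ‖∫ x in A i, x ∂(stdGaussian E)‖ ^ 2 ≤ 9 / (8 * Real.pi)) := by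
  refine ⟨?_, ?_, ?_, ?_⟩
  · exact Vale.Agent.Lib.P226.sum_sq_norm_le_universal A hmeas hdisj
  · intro hsize
    exact Vale.Agent.Lib.P226.sum_sq_norm_le_of_small_or_large A hmeas hdisj hsize
  · intro T hT hsmall
    rcases hT with hT | ⟨W, hW, hTW⟩
    · exact Vale.Agent.Lib.P226.dust_finset A hmeas hdisj T hT hsmall
    · exact Vale.Agent.Lib.P226.dust_planar A hmeas hdisj T W hW hTW hsmall
  · intro u hu hsum hsub
    refine Vale.Agent.Lib.P226.propeller_refinement_bound (u 0) (u 1) (u 2) (hu 0) (hu 1) (hu 2)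
      hsum A hmeas hdisj ?_
    intro i
    obtain ⟨j, hj⟩ := hsub i
    fin_cases j
    · left
      intro x hx
      exact ⟨hj x hx 1 (by decide), hj x hx 2 (by decide)⟩
    · right; left
      intro x hx
      exact ⟨hj x hx 0 (by decide), hj x hx 2 (by decide)⟩
    · right; right
      intro x hx
      exact ⟨hj x hx 0 (by decide), hj x hx 1 (by decide)⟩

end Vale.Agent.Results.P226.FourClasses
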