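import Vale.Agent.Lib.P226.Propeller

open MeasureTheory ProbabilityTheory
open scoped RealInnerProductSpace

namespace Vale.Agent.Results.P226.PropellerRefinement

/-- Let `u 0, u 1, u 2` be unit vectors with sum zero in a finite-dimensional real inner product
space `E` (for instance `ℝ^d`, any `d ≥ 2`); they span a plane and make angles of 120 degrees.
The three open cells `{x | ⟪u l, x⟫ < ⟪u j, x⟫ for l ≠ j}`, `j = 0, 1, 2`, are the cells of the
propeller with these directions. For every family of pairwise disjoint measurable cells, each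
contained in one of the three propeller cells (any number of cells), the sum of the squared
norms of the Gaussian first moments of the cells is at most the propeller value `9 / (8 π)`. -/
theorem result {E : Type*} [NormedAddCommGroup E] [InnerProductSpace ℝ E]
    [FiniteDimensional ℝ E] [MeasurableSpace E] [BorelSpace E]
    (u : Fin 3 → E) (hu : ∀ j, ‖u j‖ = 1) (hsum : u 0 + u 1 + u 2 = 0)
    {ι : Type*} [Fintype ι] (A : ι → Set E)
    (hmeas : ∀ i, MeasurableSet (A i))
    (hdisj : Pairwise (fun i j => Disjoint (A i) (A j)))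
    (hsub : ∀ i, ∃ j, ∀ x ∈ A i, ∀ l, l ≠ j → ⟪u l, x⟫ < ⟪u j, x⟫) :
    ∑ i, ‖∫ x in A i, x ∂(stdGaussian E)‖ ^ 2 ≤ 9 / (8 * Real.pi) := by
  refine Vale.Agent.Lib.P226.propeller_refinement_bound (u 0) (u 1) (u 2) (hu 0) (hu 1) (hu 2)
    hsum A hmeas hdisj ?_
  intro i
  obtain ⟨j, hj⟩ := hsub i
  fin_cases j
  · left
    intro x hx
    exact ⟨hj x hx 1 (by decide), hj x hx 2 (by decide)⟩
  · right; left
    intro x hx
    exact ⟨hj x hx 0 (by decide), hj x hx 2 (by decide)⟩
  · right; right
    intro x hx
    exact ⟨hj x hx 0 (by decide), hj x hx 1 (by decide)⟩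

end Vale.Agent.Results.P226.PropellerRefinement
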