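import Vale.Agent.Lib.P226.Dust.Planar

open MeasureTheory ProbabilityTheory

namespace Vale.Agent.Results.P226.TinyCells

/-- Let `A` be a finite family of pairwise disjoint measurable cells of a finite-dimensional real
inner product space `E` (for instance a finite measurable partition of `ℝ^d`, any `d`), and let
`T` be a set of exceptional cells such that every cell outside `T` has standard Gaussian measure
at most `10⁻¹¹` (any number of such cells, of unrestricted total measure). If `T` has at most
three elements, or if the Gaussian first moments of the cells of `T` lie in a common linear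
subspace of dimension at most two (any number of cells in `T`), then the sum of the squared norms
of the Gaussian first moments of all the cells is at most the propeller value `9 / (8 π)`. -/
theorem result {E : Type*} [NormedAddCommGroup E] [InnerProductSpace ℝ E]
    [FiniteDimensional ℝ E] [MeasurableSpace E] [BorelSpace E]
    {ι : Type*} [Fintype ι] (A : ι → Set E)
    (hmeas : ∀ i, MeasurableSet (A i))
    (hdisj : Pairwise (fun i j => Disjoint (A i) (A j)))
    (T : Finset ι)
    (hT : T.card ≤ 3 ∨ ∃ W : Submodule ℝ E, Module.finrank ℝ W ≤ 2 ∧
      ∀ i ∈ T, (∫ x in A i, x ∂(stdGaussian E)) ∈ W)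
    (hsmall : ∀ i, i ∉ T → (stdGaussian E).real (A i) ≤ 1 / 10 ^ 11) :
    ∑ i, ‖∫ x in A i, x ∂(stdGaussian E)‖ ^ 2 ≤ 9 / (8 * Real.pi) := by
  rcases hT with hT | ⟨W, hW, hTW⟩
  · exact Vale.Agent.Lib.P226.dust_finset A hmeas hdisj T hT hsmall
  · exact Vale.Agent.Lib.P226.dust_planar A hmeas hdisj T W hW hTW hsmall

end Vale.Agent.Results.P226.TinyCells
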