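import Vale.Agent.Lib.P226.Cell

open MeasureTheory ProbabilityTheory

namespace Vale.Agent.Results.P226.Universal0405

/-- For every finite-dimensional real inner product space `E` (for instance `ℝ^d`), every finite
index type and every family of pairwise disjoint measurable cells of `E` (in particular every
finite measurable partition), the sum of the squared norms of the Gaussian first moments of the
cells is at most `81 / 200 = 0.405`. -/
theorem result {E : Type*} [NormedAddCommGroup E] [InnerProductSpace ℝ E]
    [FiniteDimensional ℝ E] [MeasurableSpace E] [BorelSpace E]
    {ι : Type*} [Fintype ι] (A : ι → Set E)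
    (hmeas : ∀ i, MeasurableSet (A i))
    (hdisj : Pairwise (fun i j => Disjoint (A i) (A j))) :
    ∑ i, ‖∫ x in A i, x ∂(stdGaussian E)‖ ^ 2 ≤ 81 / 200 :=
  Vale.Agent.Lib.P226.sum_sq_norm_le_universal A hmeas hdisj

end Vale.Agent.Results.P226.Universal0405
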